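import Vale.Agent.P022.H790.L3.KW
import Vale.Agent.P022.H811.L3.Zeta
import Vale.Agent.P022.H933.St.Tw

/-!
P022-L3, row [CTW], part 2: a twist by a continuous character is a twist by a Dirichlet character
of odd modulus and a twist by a character unramified outside `2`.
-/

open NumberField IsDedekindDomain Matrix
open scoped Pointwise

noncomputable section

namespace Vale.Agent.P022.H790.CT

open Vale.Agent.P022 Vale.Agent.P022.C Vale.Agent.P022.H853 Vale.Agent.P022.H916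

/-! ### the cyclotomic characters -/

lemma eq_one_of_val {n : ℕ} [NeZero n] {u : (ZMod n)ˣ} (h : (u : ZMod n).val ≡ 1 [MOD n]) :
    u = 1 := by
  apply Units.ext
  rw [Units.val_one, ← ZMod.natCast_zmod_val (u : ZMod n)]
  have := (ZMod.natCast_eq_natCast_iff _ _ _).2 h
  rwa [Nat.cast_one] at this

lemma val_of_one {n : ℕ} [NeZero n] {u : (ZMod n)ˣ} (h : u = 1) :
    (u : ZMod n).val ≡ 1 [MOD n] := by
  rw [h]
  apply (ZMod.natCast_eq_natCast_iff _ _ _).1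
  rw [ZMod.natCast_zmod_val, Units.val_one, Nat.cast_one]

lemma cyc_of_dvd {n k : ℕ} [NeZero n] [NeZero k] (h : k ∣ n) {g : GQ} (hg : cyc n g = 1) :
    cyc k g = 1 := by
  apply eq_one_of_val
  have h1 := cyc_mod n h g
  exact h1.symm.trans ((val_of_one hg).of_dvd h)

lemma cyc_mul {a b : ℕ} [NeZero a] [NeZero b] (n : ℕ) [NeZero n] (hn : n = a * b)
    (hab : Nat.Coprime a b) {g : GQ} (h1 : cyc a g = 1) (h2 : cyc b g = 1) : cyc n g = 1 := by
  apply eq_one_of_val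
  subst hn
  rw [← Nat.modEq_and_modEq_iff_modEq_mul hab]
  exact ⟨(cyc_mod (a * b) (dvd_mul_right a b) g).trans (val_of_one h1),
    (cyc_mod (a * b) (dvd_mul_left b a) g).trans (val_of_one h2)⟩

/-- the cyclotomic polynomials are irreducible -/
theorem cyc_surj (n : ℕ) [NeZero n] (u : (ZMod n)ˣ) : ∃ g : GQ, cyc n g = u := by
  have hp := zt_prim n
  have hpos : 0 < n := Nat.pos_of_ne_zero (NeZero.ne n)
  have hcop : (u : ZMod n).val.Coprime n := ZMod.val_coe_unit_coprime u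
  have hp2 : IsPrimitiveRoot (zt n ^ (u : ZMod n).val) n := hp.pow_of_coprime _ hcop
  have hconj : IsConjRoot ℚ (zt n ^ (u : ZMod n).val) (zt n) := by
    show minpoly ℚ _ = minpoly ℚ _
    rw [← Polynomial.cyclotomic_eq_minpoly_rat hp hpos,
      ← Polynomial.cyclotomic_eq_minpoly_rat hp2 hpos]
  have h1 : Algebra.IsAlgebraic ℚ Qb := AlgebraicClosure.isAlgebraic ℚ
  have h2 : IsAlgClosure ℚ Qb := ⟨inferInstance, inferInstance⟩
  have h3 : IsGalois ℚ Qb := IsAlgClosure.isGalois ℚ Qb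
  obtain ⟨g, hg⟩ := isConjRoot_iff_exists_algEquiv.1 hconj
  refine ⟨g, ?_⟩
  have h4 := cyc_spec g hp.pow_eq_one
  rw [hg] at h4
  rcases eq_or_ne n 1 with h5 | h5
  · subst h5
    exact Subsingleton.elim _ _
  · have hn1 : 1 < n := by omega
    have h6 := hp.pow_inj (ZMod.val_lt _) (ZMod.val_lt _) h4
    apply Units.ext
    apply ZMod.val_injective n
    exact h6.symm

/-- the elements acting trivially on all roots of unity of `2`-power order -/
def H2 : Subgroup GQ := ⨅ r : ℕ, (cyc (2 ^ r)).ker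

lemma mem_H2 {g : GQ} : g ∈ H2 ↔ ∀ r : ℕ, cyc (2 ^ r) g = 1 := by
  unfold H2
  rw [Subgroup.mem_iInf]
  rfl

lemma isClosed_fib (n : ℕ) [NeZero n] (u : (ZMod n)ˣ) : IsClosed {g : GQ | cyc n g = u} := by
  obtain ⟨g0, hg0⟩ := cyc_surj n u
  have hcl : IsClosed ((cyc n).ker : Set GQ) := OpenSubgroup.isClosed ⟨(cyc n).ker, isOpen_cyc n⟩
  have h1 : {g : GQ | cyc n g = u} = (fun g => g0⁻¹ * g) ⁻¹' ((cyc n).ker : Set GQ) := by
    ext g
    show cyc n g = u ↔ cyc n (g0⁻¹ * g) = 1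
    rw [map_mul, map_inv, hg0, inv_mul_eq_one]
    exact eq_comm
  rw [h1]
  exact hcl.preimage (continuous_const.mul continuous_id)

/-- `H2 → (ℤ/m)ˣ` is onto for odd `m` -/
theorem exists_H2 (m : ℕ) [NeZero m] (hm : Odd m) (u : (ZMod m)ˣ) :
    ∃ g ∈ H2, cyc m g = u := by
  have h1 : Algebra.IsAlgebraic ℚ Qb := AlgebraicClosure.isAlgebraic ℚ
  have h2 : IsAlgClosure ℚ Qb := ⟨inferInstance, inferInstance⟩
  have h3 : IsGalois ℚ Qb := IsAlgClosure.isGalois ℚ Qb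
  have hcomp : CompactSpace GQ := inferInstance
  let A : ℕ → Set GQ := fun r => {g | cyc (2 ^ r) g = 1} ∩ {g | cyc m g = u}
  have hcl : ∀ r, IsClosed (A r) := fun r => (isClosed_fib _ _).inter (isClosed_fib _ _)
  have hne : ∀ r, (A r).Nonempty := by
    intro r
    have hcop : Nat.Coprime (2 ^ r) m := (Nat.coprime_two_left.2 hm).pow_left r
    obtain ⟨k, hk1, hk2⟩ := Nat.chineseRemainder hcop 1 (u : ZMod m).val
    have hk3 : k.Coprime (2 ^ r * m) := by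
      refine Nat.Coprime.mul_right ?_ ?_
      · rw [Nat.Coprime, hk1.gcd_eq]
        exact Nat.gcd_one_left _
      · rw [Nat.Coprime, hk2.gcd_eq]
        exact ZMod.val_coe_unit_coprime u
    obtain ⟨g, hg⟩ := cyc_surj (2 ^ r * m) (ZMod.unitOfCoprime k hk3)
    have hv : (cyc (2 ^ r * m) g : ZMod (2 ^ r * m)).val ≡ k [MOD 2 ^ r * m] := by
      apply (ZMod.natCast_eq_natCast_iff _ _ _).1
      rw [ZMod.natCast_zmod_val, hg, ZMod.coe_unitOfCoprime]
    refine ⟨g, ?_, ?_⟩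
    · show cyc (2 ^ r) g = 1
      apply eq_one_of_val
      have h5 := cyc_mod (2 ^ r * m) (dvd_mul_right (2 ^ r) m) g
      exact (h5.symm.trans (hv.of_dvd (dvd_mul_right _ _))).trans hk1
    · show cyc m g = u
      have h5 := cyc_mod (2 ^ r * m) (dvd_mul_left m (2 ^ r)) g
      have h6 := (h5.symm.trans (hv.of_dvd (dvd_mul_left _ _))).trans hk2
      apply Units.ext
      rw [← ZMod.natCast_zmod_val ((cyc m g : (ZMod m)ˣ) : ZMod m),
        ← ZMod.natCast_zmod_val (u : ZMod m)]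
      exact (ZMod.natCast_eq_natCast_iff _ _ _).2 h6
  have hdec : ∀ r, A (r + 1) ⊆ A r := by
    intro r g hg
    exact ⟨cyc_of_dvd (pow_dvd_pow 2 (Nat.le_succ r)) hg.1, hg.2⟩
  obtain ⟨g, hg⟩ := IsCompact.nonempty_iInter_of_sequence_nonempty_isCompact_isClosed A hdec hne
    (hcl 0).isCompact hcl
  rw [Set.mem_iInter] at hg
  exact ⟨g, mem_H2.2 fun r => (hg r).1, (hg 0).2⟩

/-- inertia at the odd primes is in `H2` -/
lemma inert_H2 {p : ℕ} (hp : p.Prime) (h2 : p ≠ 2) {P : Ideal (𝓞 Qb)} (hP : P.IsPrime)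
    (hpP : (p : 𝓞 Qb) ∈ P) {g : GQ} (hg : ∀ x : 𝓞 Qb, g • x - x ∈ P) : g ∈ H2 := by
  rw [mem_H2]
  intro r
  have hc : p.Coprime (2 ^ r) :=
    ((Nat.coprime_primes hp Nat.prime_two).2 h2).pow_right r
  have hpr := zt_prim (2 ^ r)
  have h3 := H811.L3.inert_zeta (by positivity) hp hc P hP hpP hg (zt (2 ^ r)) hpr.pow_eq_one
  have h4 := cyc_spec g hpr.pow_eq_one
  rw [h3] at h4
  rcases eq_or_ne (2 ^ r) 1 with h5 | h5
  · have : Subsingleton (ZMod (2 ^ r))ˣ := by rw [h5]; infer_instance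
    exact Subsingleton.elim _ _
  · have hn1 : 1 < 2 ^ r := by
      have := Nat.pos_of_ne_zero (NeZero.ne (2 ^ r))
      omega
    have h6 := hpr.pow_inj hn1 (ZMod.val_lt _) (by rw [pow_one]; exact h4)
    have : Fact (1 < 2 ^ r) := ⟨hn1⟩
    apply Units.ext
    apply ZMod.val_injective (2 ^ r)
    rw [← h6, Units.val_one, ZMod.val_one]

/-! ### the decomposition of a character -/

variable {E : Type} [NontriviallyNormedField E] [NormedAlgebra ℚ_[2] E]

section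

variable [IsUltrametricDist E] [FiniteDimensional ℚ_[2] E]

omit [IsUltrametricDist E] [FiniteDimensional ℚ_[2] E] in
lemma norm_two_lt : ‖(2 : E)‖ < 1 := by
  have h : algebraMap ℚ_[2] E 2 = 2 := map_ofNat _ 2
  rw [← h, norm_algebraMap']
  have := Padic.norm_p_lt_one (p := 2)
  exact_mod_cast this

omit [FiniteDimensional ℚ_[2] E] in
lemma norm_lt_of_sq {x : E} (h : ‖x ^ 2 - 1‖ < 1) : ‖x - 1‖ < 1 := by
  by_contra hcon
  push Not at hcon
  have h2 : ‖(2 : E)‖ < ‖x - 1‖ := norm_two_lt.trans_le hcon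
  have h3 : ‖x + 1‖ = ‖x - 1‖ := by
    have e : x + 1 = (x - 1) + 2 := by ring
    rw [e, IsUltrametricDist.norm_add_eq_max_of_norm_ne_norm h2.ne', max_eq_left h2.le]
  have h4 : ‖x ^ 2 - 1‖ = ‖x - 1‖ * ‖x - 1‖ := by
    have e : x ^ 2 - 1 = (x - 1) * (x + 1) := by ring
    rw [e, norm_mul, h3]
  rw [h4] at h
  nlinarith

omit [FiniteDimensional ℚ_[2] E] in
lemma norm_lt_of_pow {x : E} (r : ℕ) (h : ‖x ^ 2 ^ r - 1‖ < 1) : ‖x - 1‖ < 1 := by
  induction r with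
  | zero => simpa using h
  | succ r ih =>
    apply ih
    apply norm_lt_of_sq
    rw [← pow_mul, ← pow_succ]
    exact h

lemma unit_pow (r : ℕ) (u : (ZMod (2 ^ r))ˣ) : u ^ 2 ^ r = 1 := by
  have h1 : Fintype.card (ZMod (2 ^ r))ˣ ∣ 2 ^ r := by
    rw [ZMod.card_units_eq_totient]
    rcases Nat.eq_zero_or_pos r with h | h
    · rw [h]; simp
    · rw [Nat.totient_prime_pow Nat.prime_two h]
      simp only [Nat.add_one_sub_one, mul_one]
      exact pow_dvd_pow 2 (by omega)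
  exact orderOf_dvd_iff_pow_eq_one.1 ((orderOf_dvd_card).trans h1)

/-- a continuous character unramified outside `2` is residually trivial -/
theorem res_triv (hG : GCHStmt) (ψ : GQ →* Eˣ) (hψ : Continuous ψ)
    (h : ∀ p : ℕ, p.Prime → p ≠ 2 → ∀ P : Ideal (𝓞 Qb), P.IsPrime → (p : 𝓞 Qb) ∈ P →
      ∀ g : GQ, (∀ x : 𝓞 Qb, g • x - x ∈ P) → ψ g = 1) (g : GQ) :
    ‖((ψ g : Eˣ) : E) - 1‖ < 1 := by
  obtain ⟨m, hm, hram, hl⟩ := kw hG ψ hψ {2} (fun p hp hp2 => h p hp (by simpa using hp2))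
  have hm1 : m = 1 := by
    by_contra hne
    obtain ⟨p, hp, hpm⟩ := Nat.exists_prime_and_dvd hne
    obtain ⟨P, hP, hpP, g, hg, hne⟩ := hram p hp hpm
    refine hne (h p hp ?_ P hP hpP g hg)
    rintro rfl
    exact (Nat.not_even_iff_odd.2 hm) (even_iff_two_dvd.2 hpm)
  obtain ⟨r, hr⟩ := hl 1 one_pos
  refine norm_lt_of_pow r ?_
  have h1 := hr (2 ^ r) (by rw [hm1, mul_one]) (g ^ 2 ^ r) (by rw [map_pow, unit_pow])
  rw [map_pow, Units.val_pow_eq_pow_val] at h1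
  exact h1

/-- **the decomposition**: a continuous character of `G_ℚ` ramified at finitely many primes is the
product of a Dirichlet character of odd modulus `m` and a continuous character unramified
outside `2` -/
theorem decomp (hG : GCHStmt) (ψ : GQ →* Eˣ) (hψ : Continuous ψ) (S : Finset ℕ)
    (hS : ∀ p : ℕ, p.Prime → p ∉ S → ∀ P : Ideal (𝓞 Qb), P.IsPrime → (p : 𝓞 Qb) ∈ P →
      ∀ g : GQ, (∀ x : 𝓞 Qb, g • x - x ∈ P) → ψ g = 1) :
    ∃ (m : ℕ) (_ : NeZero m) (ψf : (ZMod m)ˣ →* Eˣ) (ψ2 : GQ →* Eˣ), Odd m ∧ Continuous ψ2 ∧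
      (∀ g : GQ, ψ g = ψf (cyc m g) * ψ2 g) ∧
      (∀ p : ℕ, p.Prime → p ≠ 2 → ∀ P : Ideal (𝓞 Qb), P.IsPrime → (p : 𝓞 Qb) ∈ P →
        ∀ g : GQ, (∀ x : 𝓞 Qb, g • x - x ∈ P) → ψ2 g = 1) ∧
      (∀ g : GQ, ‖((ψ2 g : Eˣ) : E) - 1‖ < 1) ∧
      ∀ p : ℕ, p.Prime → p ∣ m → ∃ P : Ideal (𝓞 Qb), P.IsPrime ∧ (p : 𝓞 Qb) ∈ P ∧
        ∃ g : GQ, (∀ x : 𝓞 Qb, g • x - x ∈ P) ∧ ψ g ≠ 1 := by
  obtain ⟨m, hm, hram, hl⟩ := kw hG ψ hψ S hS
  have hm0 : m ≠ 0 := by
    rintro rfl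
    exact absurd hm (by decide)
  have iNZ : NeZero m := ⟨hm0⟩
  -- the character is trivial on the elements fixing all roots of unity of order `2^r m`
  have triv : ∀ g ∈ H2, cyc m g = 1 → ψ g = 1 := by
    intro g hg hgm
    by_contra hne
    have hne' : ((ψ g : Eˣ) : E) - 1 ≠ 0 := by
      intro h
      apply hne
      apply Units.ext
      rw [Units.val_one]
      exact sub_eq_zero.1 h
    obtain ⟨r, hr⟩ := hl ‖((ψ g : Eˣ) : E) - 1‖ (norm_pos_iff.2 hne')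
    have hcop : Nat.Coprime (2 ^ r) m := (Nat.coprime_two_left.2 hm).pow_left r
    exact absurd (hr (2 ^ r * m) rfl g (cyc_mul _ rfl hcop (mem_H2.1 hg r) hgm)) (lt_irrefl _)
  have same : ∀ g ∈ H2, ∀ h ∈ H2, cyc m g = cyc m h → ψ g = ψ h := by
    intro g hg h hh he
    have h1 := triv (g * h⁻¹) (H2.mul_mem hg (H2.inv_mem hh))
      (by rw [map_mul, map_inv, he, mul_inv_cancel])
    rw [map_mul, map_inv, mul_inv_eq_one] at h1
    exact h1
  choose s hs1 hs2 using exists_H2 m hm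
  let ψf : (ZMod m)ˣ →* Eˣ :=
    { toFun := fun u => ψ (s u)
      map_one' := triv _ (hs1 1) (hs2 1)
      map_mul' := fun u v => by
        rw [← map_mul]
        exact same _ (hs1 _) _ (H2.mul_mem (hs1 u) (hs1 v)) (by rw [map_mul, hs2, hs2, hs2]) }
  have hf : ∀ g ∈ H2, ψf (cyc m g) = ψ g := fun g hg => same _ (hs1 _) g hg (hs2 _)
  let ψ2 : GQ →* Eˣ := ψ * (ψf.comp (cyc m))⁻¹
  have h2 : ∀ g, ψ2 g = ψ g * (ψf (cyc m g))⁻¹ := fun g => rfl
  have hcf : Continuous (ψf.comp (cyc m)) := by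
    apply continuous_of_continuousAt_one
    have h3 : (fun _ : GQ => (1 : Eˣ)) =ᶠ[nhds 1] (ψf.comp (cyc m)) := by
      have h4 : ((cyc m).ker : Set GQ) ∈ nhds (1 : GQ) :=
        (isOpen_cyc m).mem_nhds (cyc m).ker.one_mem
      filter_upwards [h4] with g hg
      show 1 = ψf (cyc m g)
      rw [show cyc m g = 1 from hg, map_one]
    have h5 : Filter.Tendsto (fun _ : GQ => (1 : Eˣ)) (nhds 1) (nhds 1) := tendsto_const_nhds
    show Filter.Tendsto _ _ (nhds ((ψf.comp (cyc m)) 1))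
    rw [map_one]
    exact h5.congr' h3
  have hc2 : Continuous ψ2 := by
    show Continuous fun g => ψ g * ((ψf.comp (cyc m)) g)⁻¹
    exact hψ.mul hcf.inv
  have hun : ∀ p : ℕ, p.Prime → p ≠ 2 → ∀ P : Ideal (𝓞 Qb), P.IsPrime → (p : 𝓞 Qb) ∈ P →
      ∀ g : GQ, (∀ x : 𝓞 Qb, g • x - x ∈ P) → ψ2 g = 1 := by
    intro p hp hp2 P hP hpP g hg
    rw [h2, hf g (inert_H2 hp hp2 hP hpP hg), mul_inv_cancel]
  refine ⟨m, iNZ, ψf, ψ2, hm, hc2, fun g => ?_, hun, res_triv hG ψ2 hc2 hun, hram⟩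
  rw [h2, mul_comm (ψ g), mul_inv_cancel_left]

end

end Vale.Agent.P022.H790.CT
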