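import Vale.Agent.P022.H790.L3.CTw

/-!
P022-L3, row [CTW], part 3: representations which are twists of a representation of the class `C3`
by a continuous character.
-/

open NumberField IsDedekindDomain Matrix
open scoped Pointwise

noncomputable section

namespace Vale.Agent.P022.H790.CT

open Vale.Agent.P022 Vale.Agent.P022.C Vale.Agent.P022.H853 Vale.Agent.P022.H916

section

variable {E : Type} [NontriviallyNormedField E]

/-- the scalar matrices -/
def scal : Eˣ →* GL (Fin 2) E :=
  Units.map ((Matrix.scalar (Fin 2) : E →+* Matrix (Fin 2) (Fin 2) E) : E →* Matrix (Fin 2) (Fin 2) E)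

lemma scal_mul (a : Eˣ) (x : GL (Fin 2) E) :
    ((scal a * x : GL (Fin 2) E) : Matrix (Fin 2) (Fin 2) E) =
      (a : E) • (x : Matrix (Fin 2) (Fin 2) E) := by
  rw [Units.val_mul]
  show Matrix.scalar (Fin 2) (a : E) * _ = _
  rw [Matrix.scalar_apply, Matrix.smul_eq_diagonal_mul]

lemma scal_comm (a : Eˣ) (x : GL (Fin 2) E) : scal a * x = x * scal a := by
  apply Units.ext
  rw [scal_mul, Units.val_mul]
  show _ = _ * Matrix.scalar (Fin 2) (a : E)
  rw [Matrix.scalar_apply, ← Matrix.smul_one_eq_diagonal, Matrix.mul_smul, mul_one]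

/-- the twist of `r` by `χ` -/
def tws (χ : GQ →* Eˣ) (r : GQ →* GL (Fin 2) E) : GQ →* GL (Fin 2) E where
  toFun g := scal (χ g) * r g
  map_one' := by rw [map_one, map_one, map_one, mul_one]
  map_mul' g h := by
    rw [map_mul, map_mul, map_mul, mul_assoc, ← mul_assoc (scal (χ h)), scal_comm (χ h) (r g),
      mul_assoc, mul_assoc]

lemma tws_apply (χ : GQ →* Eˣ) (r : GQ →* GL (Fin 2) E) (g : GQ) :
    (tws χ r g : Matrix (Fin 2) (Fin 2) E) = (χ g : E) • (r g : Matrix (Fin 2) (Fin 2) E) :=
  scal_mul _ _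

lemma continuous_scal : Continuous (scal (E := E)) := by
  unfold scal
  refine Continuous.units_map _ ?_
  show Continuous fun x : E => Matrix.scalar (Fin 2) x
  simp only [Matrix.scalar_apply]
  exact Continuous.matrix_diagonal (continuous_pi fun _ => continuous_id)

lemma continuous_tws {χ : GQ →* Eˣ} {r : GQ →* GL (Fin 2) E} (hχ : Continuous χ)
    (hr : Continuous r) : Continuous (tws χ r) :=
  (continuous_scal.comp hχ).mul hr

lemma one_of_smul {a : Eˣ} (h : (1 : Matrix (Fin 2) (Fin 2) E) =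
    (a : E) • (1 : Matrix (Fin 2) (Fin 2) E)) : a = 1 := by
  have h1 := congrFun (congrFun h 0) 0
  rw [Matrix.smul_apply, Matrix.one_apply_eq, smul_eq_mul, mul_one] at h1
  apply Units.ext
  rw [← h1, Units.val_one]

end

variable {E : Type} [NontriviallyNormedField E] [NormedAlgebra ℚ_[2] E]
  [FiniteDimensional ℚ_[2] E]

/-- **[CTW]** a twist of a representation of the class `C3` by a continuous character is a twist of
a representation of the class `C3` by a Dirichlet character of odd modulus `m`, all of whose primes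
are ramified -/
theorem ctw (hG : GCHStmt) (r r₀ : GQ →* GL (Fin 2) E) (ψ : GQ →* Eˣ) (hψ : Continuous ψ)
    (hc : Continuous r) (ho : OddRep r) (hS : {p : ℕ | p.Prime ∧ ¬ UnrAt r p}.Finite)
    (h0 : ∀ g, (r g : Matrix (Fin 2) (Fin 2) E) = ((ψ g : Eˣ) : E) •
      (r₀ g : Matrix (Fin 2) (Fin 2) E)) (h3 : C3 r₀) :
    ∃ (m : ℕ) (_ : NeZero m) (ψf : (ZMod m)ˣ →* Eˣ) (r₁ : GQ →* GL (Fin 2) E), Odd m ∧
      Continuous r₁ ∧ OddRep r₁ ∧ C3 r₁ ∧ St.IsTwist m ψf r₁ r ∧
      ∀ p : ℕ, p.Prime → p ∣ m → ¬ UnrAt r p := by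
  classical
  have hU : IsUltrametricDist E := IsUltrametricDist.of_normedAlgebra ℚ_[2]
  obtain ⟨hun, hres, hin, hram3⟩ := h3
  have h2ne : (2 : E) ≠ 0 := by
    have : CharZero E := charZero_of_injective_algebraMap (algebraMap ℚ_[2] E).injective
    exact two_ne_zero
  -- finiteness of the ramification of the character
  obtain ⟨m, iNZ, ψf, ψ2, hm, hc2, hdec, hun2, hres2, hramψ⟩ := decomp hG ψ hψ
    (hS.toFinset ∪ {2, 3}) (fun p hp hpS P hP hpP g hg => by
      rw [Finset.mem_union, not_or, Set.Finite.mem_toFinset, Finset.mem_insert, not_or,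
        Finset.mem_singleton] at hpS
      obtain ⟨hp1, hp2, hp3⟩ := hpS
      have hur : UnrAt r p := by
        by_contra hne
        exact hp1 ⟨hp, hne⟩
      have h1 := h0 g
      rw [hur P hP hpP g hg, hun p hp hp2 hp3 P hP hpP g hg, Units.val_one] at h1
      exact one_of_smul h1)
  have hr0 : r₀ = tws ψ⁻¹ r := by
    ext1 g
    apply Units.ext
    rw [tws_apply, h0 g, smul_smul, MonoidHom.inv_apply, Units.inv_mul, one_smul]
  have hc0 : Continuous r₀ := by
    rw [hr0]
    refine continuous_tws ?_ hc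
    show Continuous fun g => (ψ g)⁻¹
    exact hψ.inv
  have hone : ∀ {χ : GQ →* Eˣ} {c : GQ}, IsConj c → ((χ c : Eˣ) : E) ^ 2 = 1 := by
    intro χ c hcc
    rw [← Units.val_pow_eq_pow_val, ← map_pow, sq, H20.conj_sq hcc, map_one, Units.val_one]
  have hdet : ∀ (a : E) (A : Matrix (Fin 2) (Fin 2) E), (a • A).det = a ^ 2 * A.det := by
    intro a A
    rw [Matrix.det_smul, Fintype.card_fin]
  have hodd0 : OddRep r₀ := by
    intro c hcc
    have h1 := ho c hcc
    rw [h0 c, hdet, hone hcc, one_mul] at h1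
    exact h1
  have hin1 : ∀ P : Ideal (𝓞 Qb), P.IsPrime → ((3 : ℕ) : 𝓞 Qb) ∈ P → ∀ g : GQ,
      (∀ x : 𝓞 Qb, g • x - x ∈ P) → tws ψ2 r₀ g = r₀ g := by
    intro P hP h3P g hg
    apply Units.ext
    rw [tws_apply, hun2 3 Nat.prime_three (by norm_num) P hP h3P g hg, Units.val_one, one_smul]
  refine ⟨m, iNZ, ψf, tws ψ2 r₀, hm, continuous_tws hc2 hc0, ?_, ?_, ?_, ?_⟩
  · intro c hcc
    rw [tws_apply, hdet, hone hcc, one_mul]
    exact hodd0 c hcc
  · refine ⟨fun p hp hp2 hp3 P hP hpP g hg => ?_, fun g => ?_, fun P hP h3P g hg => ?_,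
      fun hu => hram3 fun P hP h3P g hg => ?_⟩
    · apply Units.ext
      rw [tws_apply, hun2 p hp hp2 P hP hpP g hg, hun p hp hp2 hp3 P hP hpP g hg, Units.val_one,
        one_smul]
    · have hn := norm_one_of (hres2 g)
      refine ⟨?_, ?_⟩
      · rw [tws_apply, Matrix.trace_smul, smul_eq_mul, norm_mul, hn, one_mul]
        exact (hres g).1
      · rw [tws_apply, hdet]
        have e : ((ψ2 g : Eˣ) : E) ^ 2 * (r₀ g : Matrix (Fin 2) (Fin 2) E).det - 1 =
            ((ψ2 g : Eˣ) : E) ^ 2 * ((r₀ g : Matrix (Fin 2) (Fin 2) E).det - 1) +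
              (((ψ2 g : Eˣ) : E) - 1) * (((ψ2 g : Eˣ) : E) + 1) := by ring
        rw [e]
        refine lt_of_le_of_lt (IsUltrametricDist.norm_add_le_max _ _) (max_lt ?_ ?_)
        · rw [norm_mul, norm_pow, hn, one_pow, one_mul]
          exact (hres g).2
        · rw [norm_mul]
          have h5 : ‖((ψ2 g : Eˣ) : E) + 1‖ ≤ 1 := by
            refine (IsUltrametricDist.norm_add_le_max _ _).trans (max_le hn.le ?_)
            rw [norm_one]
          calc ‖((ψ2 g : Eˣ) : E) - 1‖ * ‖((ψ2 g : Eˣ) : E) + 1‖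
              ≤ ‖((ψ2 g : Eˣ) : E) - 1‖ * 1 := mul_le_mul_of_nonneg_left h5 (norm_nonneg _)
            _ < 1 := by rw [mul_one]; exact hres2 g
    · rw [hin1 P hP h3P g hg]
      exact hin P hP h3P g hg
    · rw [← hin1 P hP h3P g hg]
      exact hu P hP h3P g hg
  · intro g a hga
    have ha : cyc m g = a := by
      have hpr := zt_prim m
      have h4 := cyc_spec g hpr.pow_eq_one
      rw [hga _ hpr.pow_eq_one] at h4
      rcases eq_or_ne m 1 with h5 | h5
      · subst h5
        exact Subsingleton.elim _ _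
      · have hn1 : 1 < m := by
          have := Nat.pos_of_ne_zero (NeZero.ne m)
          omega
        have h6 := hpr.pow_inj (ZMod.val_lt _) (ZMod.val_lt _) h4
        apply Units.ext
        apply ZMod.val_injective m
        exact h6.symm
    rw [tws_apply, h0 g, hdec g, ha, Units.val_mul, smul_smul]
  · intro p hp hpm hur
    obtain ⟨P, hP, hpP, g, hg, hne⟩ := hramψ p hp hpm
    have hp2 : p ≠ 2 := by
      rintro rfl
      exact (Nat.not_even_iff_odd.2 hm) (even_iff_two_dvd.2 hpm)
    by_cases hp3 : p = 3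
    · subst hp3
      apply hram3
      intro Q hQ h3Q s hs
      rcases hin Q hQ h3Q s hs with h | ⟨h5, h6⟩
      · exact h
      · exfalso
        have h7 := h0 s
        rw [hur Q hQ h3Q s hs, Units.val_one] at h7
        have h8 := congrArg Matrix.det h7
        rw [Matrix.det_one, hdet, h6] at h8
        have h9 : ((ψ s : Eˣ) : E) ^ 2 = -1 := by linear_combination h8
        have h10 := congrArg (fun x : GL (Fin 2) E => (x : Matrix (Fin 2) (Fin 2) E)) h5
        simp only [Units.val_mul, Units.val_one] at h10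
        have h11 : (1 : Matrix (Fin 2) (Fin 2) E) * 1 = ((ψ s : Eˣ) : E) ^ 2 • 1 := by
          conv_lhs => rw [h7]
          rw [Matrix.smul_mul, Matrix.mul_smul, smul_smul, h10, sq]
        rw [h9, mul_one] at h11
        have h12 := congrFun (congrFun h11 0) 0
        rw [Matrix.smul_apply, Matrix.one_apply_eq, smul_eq_mul, mul_one] at h12
        apply h2ne
        linear_combination h12
    · apply hne
      have h7 := h0 g
      rw [hur P hP hpP g hg, hun p hp hp2 hp3 P hP hpP g hg, Units.val_one] at h7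
      exact one_of_smul h7

end Vale.Agent.P022.H790.CT
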