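import Vale.Agent.P022.H790.L3.Ct3
import Vale.Agent.P022.H567.Tw.Main

/-!
P022-L3, row [CTW], part 4: the final form, in the words of the statement.
-/

open NumberField IsDedekindDomain Matrix

noncomputable section

namespace Vale.Agent.P022.St

/-- **every twist of a representation of the class `C3` by a continuous character**: `r`
continuous, odd, ramified at finitely many primes, `r = ψ ⊗ r₀` with `ψ` continuous and `r₀` in the
class `C3` -/
theorem q1_of_cont_twist (hG : Vale.Agent.P022.C.GCHStmt)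
    (l3 : ∀ (E : Type) [NontriviallyNormedField E] [NormedAlgebra ℚ_[2] E]
      [FiniteDimensional ℚ_[2] E] (r : GQ →* GL (Fin 2) E), Continuous r →
      Vale.Agent.P022.OddRep r → Vale.Agent.P022.C3 r → Vale.Agent.P022.Occurs E 3 r)
    (E : Type) [NontriviallyNormedField E] [NormedAlgebra ℚ_[2] E] [FiniteDimensional ℚ_[2] E]
    (r r₀ : GQ →* GL (Fin 2) E) (hc : Continuous r) (ho : Vale.Agent.P022.OddRep r)
    (hS : {p : ℕ | p.Prime ∧ ¬ Vale.Agent.P022.UnrAt r p}.Finite)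
    (ψ : GQ →* Eˣ) (hψ : Continuous ψ)
    (h0 : ∀ g, (r g : Matrix (Fin 2) (Fin 2) E) = ((ψ g : Eˣ) : E) •
      (r₀ g : Matrix (Fin 2) (Fin 2) E)) (h3 : Vale.Agent.P022.C3 r₀) : Q1Concl r := by
  obtain ⟨m, iNZ, ψf, r₁, hm, hc1, ho1, h31, htw, hram⟩ :=
    H790.CT.ctw hG r r₀ ψ hψ hc ho hS h0 h3
  refine q1_of_twist E 3 m (by decide) hm ψf r₁ r (l3 E r₁ hc1 ho1 h31) (fun p hp hp3 => ?_)
    htw hram
  rw [(Nat.prime_dvd_prime_iff_eq hp Nat.prime_three).1 hp3]
  exact h31.2.2.2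

end Vale.Agent.P022.St
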