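import Vale.Agent.P022.H565.Fre
import Vale.Agent.P022.H853.L3.Dens
import Vale.Agent.P022.H853.L3.Cyc
import Vale.Agent.P022.H20.L3.Fin3

/-!
P022-L3, row [CTW], part 1: Kronecker-Weber for the continuous `2`-adic characters of `G_ℚ`, from
reciprocity over `ℚ`.
-/

open NumberField IsDedekindDomain Matrix
open scoped Pointwise

noncomputable section

namespace Vale.Agent.P022.H790.CT

open Vale.Agent.P022 Vale.Agent.P022.C Vale.Agent.P022.H853 Vale.Agent.P022.H916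

variable {E : Type} [NontriviallyNormedField E] [NormedAlgebra ℚ_[2] E] [IsUltrametricDist E]
  [FiniteDimensional ℚ_[2] E]

omit [NormedAlgebra ℚ_[2] E] [FiniteDimensional ℚ_[2] E] in
lemma norm_one_of {x : E} (h : ‖x - 1‖ < 1) : ‖x‖ = 1 := by
  have h1 : ‖x - 1‖ ≠ ‖(1 : E)‖ := by rw [norm_one]; exact h.ne
  have h2 := IsUltrametricDist.norm_add_eq_max_of_norm_ne_norm h1
  rw [sub_add_cancel, norm_one, max_eq_right h.le] at h2
  exact h2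

omit [NormedAlgebra ℚ_[2] E] [FiniteDimensional ℚ_[2] E] in
/-- the balls around `1` are groups -/
def ball (ε : ℝ) (h0 : 0 < ε) (h1 : ε ≤ 1) : Subgroup Eˣ where
  carrier := {x | ‖(x : E) - 1‖ < ε}
  mul_mem' {x y} hx hy := by
    have hx' : ‖(x : E) - 1‖ < ε := hx
    have hy' : ‖(y : E) - 1‖ < ε := hy
    show ‖((x * y : Eˣ) : E) - 1‖ < ε
    have e : ((x * y : Eˣ) : E) - 1 = ((x : E) - 1) * y + ((y : E) - 1) := by
      rw [Units.val_mul]; ring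
    rw [e]
    refine lt_of_le_of_lt (IsUltrametricDist.norm_add_le_max _ _) (max_lt ?_ hy')
    rw [norm_mul, norm_one_of (hy'.trans_le h1), mul_one]
    exact hx'
  one_mem' := by
    show ‖((1 : Eˣ) : E) - 1‖ < ε
    rw [Units.val_one, sub_self, norm_zero]
    exact h0
  inv_mem' {x} hx := by
    have hx' : ‖(x : E) - 1‖ < ε := hx
    show ‖((x⁻¹ : Eˣ) : E) - 1‖ < ε
    have e : ((x⁻¹ : Eˣ) : E) - 1 = ((x⁻¹ : Eˣ) : E) * (1 - (x : E)) := by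
      rw [mul_sub, mul_one, Units.inv_mul]
    rw [e, norm_mul, norm_sub_rev, Units.val_inv_eq_inv_val, norm_inv,
      norm_one_of (hx'.trans_le h1), inv_one, one_mul]
    exact hx'

omit [NormedAlgebra ℚ_[2] E] [FiniteDimensional ℚ_[2] E] in
lemma mem_ball {ε : ℝ} {h0 : 0 < ε} {h1 : ε ≤ 1} {x : Eˣ} :
    x ∈ ball (E := E) ε h0 h1 ↔ ‖(x : E) - 1‖ < ε := Iff.rfl

omit [NormedAlgebra ℚ_[2] E] [FiniteDimensional ℚ_[2] E] in
lemma isOpen_comap_ball {ψ : GQ →* Eˣ} (hψ : Continuous ψ) (ε : ℝ) (h0 : 0 < ε) (h1 : ε ≤ 1) :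
    IsOpen (((ball (E := E) ε h0 h1).comap ψ : Subgroup GQ) : Set GQ) := by
  have h2 : (((ball (E := E) ε h0 h1).comap ψ : Subgroup GQ) : Set GQ) =
      (fun g => ‖((ψ g : Eˣ) : E) - 1‖) ⁻¹' Set.Iio ε := rfl
  rw [h2]
  exact isOpen_Iio.preimage (((Units.continuous_val.comp hψ).sub continuous_const).norm)

lemma coe_pos (φ : ℚ →+* ℝ) {ℓ : ℕ} (hℓ : ℓ.Prime) : ¬ φ (((ℓ : 𝓞 ℚ)) : ℚ) < 0 := by
  have h1 : (((ℓ : 𝓞 ℚ)) : ℚ) = (ℓ : ℚ) := map_natCast (algebraMap (𝓞 ℚ) ℚ) ℓ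
  rw [h1, map_natCast]
  exact not_lt.2 (Nat.cast_nonneg _)

/-- **[KW]** a continuous `2`-adic character of `G_ℚ` ramified at finitely many primes is a limit of
Dirichlet characters of conductors `2^r m`, with one odd `m`, divisible only by primes at which it
is ramified -/
theorem kw (hG : GCHStmt) (ψ : GQ →* Eˣ) (hψ : Continuous ψ) (S : Finset ℕ)
    (hS : ∀ p : ℕ, p.Prime → p ∉ S → ∀ P : Ideal (𝓞 Qb), P.IsPrime → (p : 𝓞 Qb) ∈ P →
      ∀ g : GQ, (∀ x : 𝓞 Qb, g • x - x ∈ P) → ψ g = 1) :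
    ∃ m : ℕ, Odd m ∧
      (∀ p : ℕ, p.Prime → p ∣ m → ∃ P : Ideal (𝓞 Qb), P.IsPrime ∧ (p : 𝓞 Qb) ∈ P ∧
        ∃ g : GQ, (∀ x : 𝓞 Qb, g • x - x ∈ P) ∧ ψ g ≠ 1) ∧
      ∀ ε : ℝ, 0 < ε → ∃ r : ℕ, ∀ (n : ℕ) [NeZero n], n = 2 ^ r * m → ∀ g : GQ, cyc n g = 1 →
        ‖((ψ g : Eˣ) : E) - 1‖ < ε := by
  classical
  let j : ℚ →+* Qb := algebraMap ℚ Qb
  have htop : ∀ g : GQ, g ∈ GK j := fun g x => g.commutes x
  let χ : GK j →* Eˣ := ψ.comp (GK j).subtype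
  have hχ : Continuous χ := hψ.comp continuous_subtype_val
  obtain ⟨m, Ψ, hm, hram, hatt, hrec⟩ := hG ℚ j E χ hχ S
    (fun p hp hpS P hP hpP g hg => hS p hp hpS P hP hpP g hg)
  refine ⟨m, hm, fun p hp hpm => ?_, fun ε hε => ?_⟩
  · obtain ⟨P, hP, hpP, g, hg, hne⟩ := hram p hp hpm
    exact ⟨P, hP, hpP, g, hg, hne⟩
  -- the values at complex conjugations
  obtain ⟨-, -, hcj, hce⟩ := H565.FRE ℚ j
  choose gc hgc using hce
  obtain ⟨r, hr⟩ := hrec (fun φ => ((χ (gc φ) : Eˣ) : E))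
    (fun φ g hg => by rw [hcj Eˣ χ φ g (gc φ) hg (hgc φ)]) (min ε 1) (lt_min hε one_pos)
  refine ⟨r, fun n _ hn g hg => ?_⟩
  set δ := min ε 1 with hδ
  have h0 : 0 < δ := lt_min hε one_pos
  have h1 : δ ≤ 1 := min_le_right _ _
  refine lt_of_lt_of_le (b := δ) ?_ (min_le_left _ _)
  by_contra hcon
  let C : Subgroup GQ := (cyc n).ker
  have hC : IsOpen (C : Set GQ) := isOpen_cyc n
  let B : Subgroup GQ := (ball (E := E) δ h0 h1).comap ψ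
  have hB : IsOpen (B : Set GQ) := isOpen_comap_ball hψ δ h0 h1
  obtain ⟨F, iF, iN, jF, hGF⟩ := exists_fix C hC
  have hle : C ⊓ B ≤ GK jF := by rw [hGF]; exact inf_le_left
  have hnor : ∀ x ∈ GK jF, ∀ u ∈ C ⊓ B, x * u * x⁻¹ ∈ C ⊓ B := by
    intro x _ u hu
    refine ⟨?_, ?_⟩
    · show cyc n (x * u * x⁻¹) = 1
      have h2 : cyc n u = 1 := hu.1
      rw [map_mul, map_mul, h2, mul_one, map_inv, mul_inv_cancel]
    · show ψ (x * u * x⁻¹) ∈ ball (E := E) δ h0 h1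
      have h2 : ψ (x * u * x⁻¹) = ψ u := by
        rw [map_mul, map_mul, map_inv, mul_comm (ψ x), mul_assoc, mul_inv_cancel, mul_one]
      rw [h2]
      exact hu.2
  obtain ⟨L, iL, iNL, iA, iG, jL, ρ, D, hGL, -⟩ := exists_fld jF (C ⊓ B) (hC.inter hB) hle hnor
  have hgF : g ∈ GK jF := by rw [hGF]; exact hg
  have hgL : ((⟨g, hgF⟩ : GK jF) : GQ) ∉ GK jL := by
    rw [hGL]
    intro h2
    exact hcon h2.2
  have hm0 : m ≠ 0 := by
    rintro rfl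
    exact absurd hm (by decide)
  obtain ⟨ℓ, hℓ, hℓS, P, hP, hlP, φ, hφ, hφL⟩ := frob_not_mem D hgL
    (by rw [hGL]; exact hnor) (2 * m).primeFactors (by simp)
  have hl2m : ¬ ℓ ∣ 2 * m := fun h =>
    hℓS (Nat.mem_primeFactors.2 ⟨hℓ, h, by omega⟩)
  have hφC : (φ : GQ) ∈ C := by rw [← hGF]; exact φ.2
  have hφB : (φ : GQ) ∉ B := fun h => hφL (by rw [hGL]; exact ⟨hφC, h⟩)
  have hln : ¬ ℓ ∣ n := by
    intro h
    rw [hn] at h
    rcases hℓ.dvd_mul.1 h with h2 | h2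
    · exact hl2m (Dvd.dvd.mul_right (hℓ.dvd_of_dvd_pow h2) m)
    · exact hl2m (Dvd.dvd.mul_left h2 2)
  have hcyc := cyc_frob (m := n) hℓ hln ⟨P, hP, hlP, hφ⟩
  rw [show cyc n (φ : GQ) = 1 from hφC, Units.val_one] at hcyc
  have hdvd : (n : ℤ) ∣ (ℓ : ℤ) - 1 := by
    rw [← ZMod.intCast_zmod_eq_zero_iff_dvd]
    push_cast
    rw [← hcyc, sub_self]
  have hlr := hr ((ℓ : ℕ) : 𝓞 ℚ) (by exact_mod_cast hℓ.ne_zero) (by
    obtain ⟨k, hk⟩ := hdvd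
    refine ⟨(k : 𝓞 ℚ), ?_⟩
    rw [← hn]
    have := congrArg (fun z : ℤ => (z : 𝓞 ℚ)) hk
    push_cast at this
    exact this)
  have hempty : {φ' : ℚ →+* ℝ | φ' ((((ℓ : ℕ) : 𝓞 ℚ)) : ℚ) < 0} = ∅ := by
    ext φ'
    simp only [Set.mem_ofPred_eq, Set.mem_empty_iff_false, iff_false]
    exact coe_pos φ' hℓ
  rw [hempty] at hlr
  rw [finprod_mem_empty, mul_one] at hlr
  -- the value at the Frobenius element
  have hbel := H20.below_eq hℓ hP hlP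
  have habs : Ideal.absNorm (below j P) = ℓ := by
    show Ideal.absNorm (below (algebraMap ℚ Qb) P) = ℓ
    rw [hbel, Ideal.absNorm_span_natCast, RingOfIntegers.rank, Module.finrank_self, pow_one]
  have hval := (hatt ℓ hℓ hl2m P hP hlP ⟨(φ : GQ), htop _⟩).2 (by
    rw [habs]
    exact hφ)
  have hval' : ((ψ (φ : GQ) : Eˣ) : E) = Ψ (Ideal.span {((ℓ : ℕ) : 𝓞 ℚ)}) := by
    rw [← hbel]
    exact hval
  rw [← hval'] at hlr
  exact hφB hlr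

end Vale.Agent.P022.H790.CT
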